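import Vale.Agent.P240.ReductionKinds

namespace Vale.Agent.Results.P240.ArbitraryFitting

open Vale.Agent.P240

/-- Quillen's conjecture, modulo a prime `q`, for all groups whose components have a suitable
`q`-subgroup; in particular at `p = 2` for classical and some alternating components. -/
theorem result :
    ∀ (G : Type) [Group G] [Finite G] (p q : ℕ), p.Prime → q.Prime →
    ∀ (I : Type) [Fintype I] (L : I → Subgroup G) (K : Subgroup G),
      (∀ N : Subgroup G, N.Normal → IsPGroup p N → N = ⊥) →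
      K.Normal → Group.IsNilpotent K →
      (∀ i, ∀ y ∈ L i, ∀ u ∈ K, y * u = u * y) →
      (∀ i j, i ≠ j → ∀ x ∈ L i, ∀ y ∈ L j, x * y = y * x) →
      (∀ g i, ∃ j, ∀ y, y ∈ L i ↔ g * y * g⁻¹ ∈ L j) →
      (∀ g, (∀ i, ∀ y ∈ L i, g * y = y * g) → (∀ u ∈ K, g * u = u * g) → g ∈ K) →
      (∀ i, HasLocalQSubgroup p q (L i) ∨
        (p = 2 ∧ q ≠ 2 ∧
          (IsSLComponent q (L i) ∨ IsFormComponent q (L i) ∨ IsAltQComponent q (L i)))) →
      modBoundary q (ElemAbelian p G) ∘ₗ modBoundary q (ElemAbelian p G) = 0 ∧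
        ¬ LinearMap.ker (modBoundary q (ElemAbelian p G)) ≤
          LinearMap.range (modBoundary q (ElemAbelian p G)) := by
  intro G _ _ p q hp hq I _ L K hO hK hKn hKL hcomm hperm hcent htype
  have : Fact p.Prime := ⟨hp⟩
  have : Fact q.Prime := ⟨hq⟩
  refine ⟨modBoundary_modBoundary q, not_acyclic_of_Op L K hKn hO hKL hcomm hperm hcent fun i => ?_⟩
  rcases htype i with h | ⟨rfl, hq2, h | h | h⟩
  · exact h
  · exact hasLocalQSubgroup_linear hq2 h
  · exact hasLocalQSubgroup_form hq2 h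
  · exact hasLocalQSubgroup_alternating hq2 h

end Vale.Agent.Results.P240.ArbitraryFitting
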