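import Vale.Agent.P240.General

namespace Vale.Agent.Results.P240.GeneralComponents

open Vale.Agent.P240

/-- Quillen's conjecture at `p = 2`, in homological form, for groups whose components are
alternating or classical in one odd characteristic and whose Fitting subgroup is tame. -/
theorem result :
    ∀ (G : Type) [Group G] [Finite G] (I : Type) [Fintype I] (r : ℕ), r.Prime → r ≠ 2 →
    ∀ (L : I → Subgroup G) (K R : Subgroup G) (z : G),
      K.Normal → Odd (Nat.card K) → IsPGroup r R → R ≤ K → z ∈ K → (∀ u ∈ R, z * u = u * z) →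
      (∀ i, ∀ y ∈ L i, ∀ u ∈ K, y * u = u * y) →
      (∀ i j, i ≠ j → ∀ x ∈ L i, ∀ y ∈ L j, x * y = y * x) →
      (∀ g i, ∃ j, ∀ y, y ∈ L i ↔ g * y * g⁻¹ ∈ L j) →
      (∀ g, g * g = 1 → (∀ i, ∀ y ∈ L i, g * y = y * g) → (∀ u ∈ R, g * u = u * g) →
        g * z = z * g → g = 1) →
      (∀ i, IsAltComponent r L i ∨ IsSLComponent r (L i) ∨ IsFormComponent r (L i)) →
      (∀ N : Subgroup G, N.Normal → IsPGroup 2 N → N = ⊥) ∧
        boundary (ElemAbelian 2 G) ∘ₗ boundary (ElemAbelian 2 G) = 0 ∧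
        ¬ LinearMap.ker (boundary (ElemAbelian 2 G)) ≤
          LinearMap.range (boundary (ElemAbelian 2 G)) := by
  intro G _ _ I _ r hr hr2 L K R z hK hKodd hR hRK hz hzR hKL hcomm hperm hcent htype
  obtain ⟨h1, h2⟩ := hasHomology_general hr hr2 L K R z hK hKodd hR hRK hz hzR hKL hcomm hperm
    hcent htype
  exact ⟨h1, boundary_boundary, h2⟩

end Vale.Agent.Results.P240.GeneralComponents
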