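import Vale.Agent.P240.TwoPrimes

namespace Vale.Agent.Results.P240.TwoCharacteristics

open Vale.Agent.P240

/-- Quillen's conjecture at `p = 2`, modulo `q`, for groups whose components are classical in two
odd characteristics `q` and `r`, or alternating. -/
theorem result :
    ∀ (G : Type) [Group G] [Finite G] (q r : ℕ), q.Prime → q ≠ 2 → r.Prime → r ≠ 2 →
    ∀ (I : Type) [Fintype I] (L : I → Subgroup G) (K Q₀ R : Subgroup G) (z : G),
      K.Normal → Odd (Nat.card K) → Q₀.Normal → IsPGroup q Q₀ → Q₀ ≤ K →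
      IsPGroup r R → R ≤ K → z ∈ K → (∀ u ∈ R, z * u = u * z) → (∀ t ∈ Q₀, z * t = t * z) →
      (∀ u ∈ R, ∀ t ∈ Q₀, u * t = t * u) →
      (∀ i, ∀ y ∈ L i, ∀ u ∈ K, y * u = u * y) →
      (∀ i j, i ≠ j → ∀ x ∈ L i, ∀ y ∈ L j, x * y = y * x) →
      (∀ g i, ∃ j, ∀ y, y ∈ L i ↔ g * y * g⁻¹ ∈ L j) →
      (∀ g, g * g = 1 → (∀ i, ∀ y ∈ L i, g * y = y * g) → (∀ t ∈ Q₀, g * t = t * g) →
        (∀ u ∈ R, g * u = u * g) → g * z = z * g → g = 1) →
      (∀ i, IsAdmissibleComponent q r L i) →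
      modBoundary q (ElemAbelian 2 G) ∘ₗ modBoundary q (ElemAbelian 2 G) = 0 ∧
        ¬ LinearMap.ker (modBoundary q (ElemAbelian 2 G)) ≤
          LinearMap.range (modBoundary q (ElemAbelian 2 G)) := by
  intro G _ _ q r hq hq2 hr hr2 I _ L K Q₀ R z h1 h2 h3 h4 h5 h6 h7 h8 h9 h10 h11 h12 h13 h14 h15 h16
  have : Fact q.Prime := ⟨hq⟩
  exact ⟨modBoundary_modBoundary q, not_acyclic_two_primes hq2 hr hr2 L K Q₀ R z h1 h2 h3 h4 h5 h6
    h7 h8 h9 h10 h11 h12 h13 h14 h15 h16⟩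

end Vale.Agent.Results.P240.TwoCharacteristics
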